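import Vale.Agent.P226.Core.Hh

/-! # P226 core: Gaussian linear algebra and the circle lemma -/

namespace Vale.Agent.P226.Core

open MeasureTheory ProbabilityTheory Real WithLp
open scoped RealInnerProductSpace

variable {E : Type*} [NormedAddCommGroup E] [InnerProductSpace ℝ E] [FiniteDimensional ℝ E]
  [MeasurableSpace E] [BorelSpace E]

/-- Inner products with a family. -/
noncomputable def coords {ι : Type*} (e : ι → E) (x : E) : ι → ℝ := fun i => ⟪e i, x⟫

omit [FiniteDimensional ℝ E] in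
theorem measurable_coords {ι : Type*} (e : ι → E) : Measurable (coords e) :=
  measurable_pi_lambda _ fun _ => (continuous_const.inner continuous_id).measurable

theorem charFun_coords {ι : Type*} [Fintype ι] (e : ι → E) (t : EuclideanSpace ℝ ι) :
    charFun ((stdGaussian E).map fun x => toLp 2 (coords e x)) t =
      charFun (stdGaussian E) (∑ i, t i • e i) := by
  have hm : Measurable fun x : E => toLp 2 (coords e x) :=
    (WithLp.measurable_toLp 2 _).comp (measurable_coords e)
  rw [charFun_apply, charFun_apply, integral_map hm.aemeasurable (by fun_prop)]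
  refine integral_congr_ae (ae_of_all _ fun x => ?_)
  simp [coords, PiLp.inner_apply, inner_sum, inner_smul_right, real_inner_comm x]

/-- The law of inner products with a family depends on its Gram matrix only. -/
theorem integral_coords_eq {E' : Type*} [NormedAddCommGroup E'] [InnerProductSpace ℝ E']
    [FiniteDimensional ℝ E'] [MeasurableSpace E'] [BorelSpace E'] {ι : Type*} [Fintype ι]
    (e : ι → E) (e' : ι → E') (hG : ∀ i j, ⟪e i, e j⟫ = ⟪e' i, e' j⟫) {F : (ι → ℝ) → ℝ}
    (hF : Measurable F) :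
    ∫ x, F (coords e x) ∂(stdGaussian E) = ∫ x, F (coords e' x) ∂(stdGaussian E') := by
  have hmE : Measurable fun x : E => toLp 2 (coords e x) :=
    (WithLp.measurable_toLp 2 _).comp (measurable_coords e)
  have hmE' : Measurable fun x : E' => toLp 2 (coords e' x) :=
    (WithLp.measurable_toLp 2 _).comp (measurable_coords e')
  have h : ((stdGaussian E).map fun x => toLp 2 (coords e x)) =
      (stdGaussian E').map fun x => toLp 2 (coords e' x) := by
    refine Measure.ext_of_charFun ?_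
    funext t
    rw [charFun_coords, charFun_coords, charFun_stdGaussian, charFun_stdGaussian]
    have hn : ‖∑ i, t i • e i‖ ^ 2 = ‖∑ i, t i • e' i‖ ^ 2 := by
      simp only [← real_inner_self_eq_norm_sq, sum_inner, inner_sum, real_inner_smul_left,
        inner_smul_right, hG]
    rw [show ((‖∑ i, t i • e i‖ : ℝ) : ℂ) ^ 2 = ((‖∑ i, t i • e' i‖ : ℝ) : ℂ) ^ 2 by
      exact_mod_cast hn]
  have hG' : StronglyMeasurable fun y : EuclideanSpace ℝ ι => F (ofLp y) :=
    (hF.comp (WithLp.measurable_ofLp 2 _)).stronglyMeasurable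
  have := congrArg (fun μ => ∫ y, F (ofLp y) ∂μ) h
  simpa only [integral_map hmE.aemeasurable hG'.aestronglyMeasurable,
    integral_map hmE'.aemeasurable hG'.aestronglyMeasurable, ofLp_toLp] using this

/-- An orthonormal family has independent standard normal coordinates. -/
theorem integral_coords_orthonormal {m : ℕ} {e : Fin m → E} (he : Orthonormal ℝ e)
    {F : (Fin m → ℝ) → ℝ} (hF : Measurable F) :
    ∫ x, F (coords e x) ∂(stdGaussian E) = ∫ y, F y ∂(gaussPi m) := by
  rw [integral_coords_eq e (fun i => EuclideanSpace.single i (1 : ℝ)) (fun i j => ?_) hF,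
    ← map_pi_eq_stdGaussian, integral_map (WithLp.measurable_toLp 2 _).aemeasurable]
  · refine integral_congr_ae (ae_of_all _ fun y => congrArg F (funext fun i => ?_))
    simp [coords, EuclideanSpace.inner_single_left]
  · exact (hF.comp (measurable_coords _)).aestronglyMeasurable
  · rw [orthonormal_iff_ite.1 he, EuclideanSpace.inner_single_left]
    simp [PiLp.single_apply]

theorem integrable_linear_bound {μ : Measure E} {f : E → ℝ} [IsGaussian μ] (hf : Measurable f)
    {A B : ℝ} (h : ∀ x, |f x| ≤ A * ‖x‖ + B) : Integrable f μ :=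
  Integrable.mono' (((IsGaussian.integrable_id (μ := μ)).norm.const_mul A).add (integrable_const B))
    hf.aestronglyMeasurable (ae_of_all _ h)

/-- One extra orthogonal coordinate becomes the noise of `hh`. -/
theorem integral_snoc {m : ℕ} (b : ℝ) {G : (Fin m → ℝ) → ℝ}
    (hi : Integrable G (gaussPi m)) :
    ∫ y, max (G (fun i => y i.castSucc) + b * y (Fin.last m)) 0 ∂(gaussPi (m + 1)) =
      ∫ y, hh b (G y) ∂(gaussPi m) := by
  have hmp := measurePreserving_piFinSuccAbove (fun _ : Fin (m + 1) => gaussianReal 0 1)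
    (Fin.last m)
  let H : ℝ × (Fin m → ℝ) → ℝ := fun q => max (G q.2 + b * q.1) 0
  have hH : Integrable H ((gaussianReal 0 1).prod (gaussPi m)) :=
    ((hi.comp_snd (gaussianReal 0 1)).add
      ((integrable_gauss_id.const_mul b).comp_fst (gaussPi m))).pos_part
  calc _ = ∫ q, H q ∂((gaussianReal 0 1).prod (gaussPi m)) := by
        rw [← hmp.integral_comp' H]
        refine integral_congr_ae (ae_of_all _ fun y => ?_)
        simp [H, MeasurableEquiv.piFinSuccAbove]
        rfl
    _ = _ := integral_prod_symm H hH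

theorem circle_alg {r s r' s' p q : ℝ} (hr' : 0 ≤ r') (hlt : r' < r)
    (hss : s < s') (hn : r ^ 2 + s ^ 2 = r' ^ 2 + s' ^ 2)
    (h : (r * p + s * q) ^ 2 < (r' * p + s' * q) ^ 2) :
    p ^ 2 ≤ (p - 2 * (r - r') / ((r - r') ^ 2 + (s' - s) ^ 2) *
      ((r - r') * p - (s' - s) * q)) ^ 2 := by
  set dr := r - r' with hdr
  set ds := s' - s with hds
  have hdr0 : 0 < dr := by linarith
  have hds0 : 0 < ds := by linarith
  have hk : dr * (r + r') = ds * (s + s') := by rw [hdr, hds]; linarith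
  have hQ : ds * ((r' * p + s' * q) ^ 2 - (r * p + s * q) ^ 2) =
      (r + r') * ((ds * p + dr * q) * (ds * q - dr * p)) := by
    have e1 : (r' * p + s' * q) ^ 2 - (r * p + s * q) ^ 2 =
        (ds * q - dr * p) * ((r + r') * p + (s + s') * q) := by rw [hdr, hds]; ring
    rw [e1]
    linear_combination (-(ds * q - dr * p) * q) * hk
  have hQpos : 0 < (ds * p + dr * q) * (ds * q - dr * p) := by
    have : 0 < ds * ((r' * p + s' * q) ^ 2 - (r * p + s * q) ^ 2) := mul_pos hds0 (by linarith)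
    rw [hQ] at this
    exact pos_of_mul_pos_right this (by linarith)
  set D := dr ^ 2 + ds ^ 2 with hDdef
  have hD : 0 < D := by positivity
  have e3 : (p - 2 * dr / D * (dr * p - ds * q)) ^ 2 - p ^ 2 =
      4 * dr * ds / D ^ 2 * ((ds * p + dr * q) * (ds * q - dr * p)) := by
    field_simp
    rw [hDdef]
    ring
  have : 0 ≤ 4 * dr * ds / D ^ 2 * ((ds * p + dr * q) * (ds * q - dr * p)) :=
    mul_nonneg (by positivity) hQpos.le
  linarith

/-- Moving weight of a linear form from `e` to `f` increases the expected excess. -/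
theorem circle {e f : E} (he : ‖e‖ = 1) (hf : ‖f‖ = 1) (hef : ⟪e, f⟫ = 0) {r s r' s' : ℝ}
    (hr' : 0 ≤ r') (hrr : r' ≤ r) (hs : 0 ≤ s) (hs' : 0 ≤ s')
    (hn : r ^ 2 + s ^ 2 = r' ^ 2 + s' ^ 2) (b : ℝ)
    {L : E → ℝ} (hL : Measurable L) (hL0 : ∀ x, 0 ≤ L x) (hLe : ∀ x, L (-x) = L x)
    {C : ℝ} (hLb : ∀ x, L x ≤ C * ‖x‖)
    (hmono : ∀ x y, ⟪e, x⟫ ^ 2 + ⟪f, x⟫ ^ 2 = ⟪e, y⟫ ^ 2 + ⟪f, y⟫ ^ 2 →
      (∀ w, ⟪w, e⟫ = 0 → ⟪w, f⟫ = 0 → ⟪w, x⟫ = ⟪w, y⟫) → ⟪e, x⟫ ^ 2 ≤ ⟪e, y⟫ ^ 2 → L x ≤ L y) :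
    ∫ x, hh b (r * ⟪e, x⟫ + s * ⟪f, x⟫ - L x) ∂(stdGaussian E) ≤
      ∫ x, hh b (r' * ⟪e, x⟫ + s' * ⟪f, x⟫ - L x) ∂(stdGaussian E) := by
  have hr : 0 ≤ r := hr'.trans hrr
  rcases eq_or_lt_of_le hrr with rfl | hlt
  · have : s = s' := (sq_eq_sq₀ hs hs').1 (by linarith)
    rw [this]
  have hss : s < s' := by nlinarith
  set dr := r - r'
  set ds := s' - s
  have hD : 0 < dr ^ 2 + ds ^ 2 := by
    have : 0 < dr := by simp only [dr]; linarith
    positivity
  have hee : ⟪e, e⟫ = 1 := by rw [real_inner_self_eq_norm_sq, he]; norm_num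
  have hff : ⟪f, f⟫ = 1 := by rw [real_inner_self_eq_norm_sq, hf]; norm_num
  have hfe : ⟪f, e⟫ = 0 := by rw [real_inner_comm, hef]
  set v := r • e + s • f with hv
  set v' := r' • e + s' • f with hv'
  have hvn : ‖v‖ = ‖v'‖ := by
    refine (sq_eq_sq₀ (norm_nonneg _) (norm_nonneg _)).1 ?_
    simp only [← real_inner_self_eq_norm_sq, hv, hv', inner_add_left, inner_add_right,
      real_inner_smul_left, inner_smul_right, hee, hff, hef, hfe]
    linarith
  set σ : E ≃ₗᵢ[ℝ] E := (ℝ ∙ (v - v'))ᗮ.reflection with hσ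
  have hσv : σ v = v' := Submodule.reflection_sub hvn
  have hinv : ∀ x, σ (σ x) = x := fun x => Submodule.reflection_reflection _ x
  have hsym : ∀ w x : E, ⟪w, σ x⟫ = ⟪σ w, x⟫ := fun w x => by
    conv_lhs => rw [← hinv w, σ.inner_map_map]
  have hσv' : σ v' = v := by rw [← hσv, hinv]
  have hd : v - v' = dr • e - ds • f := by
    simp only [hv, hv', dr, ds, sub_smul]; abel
  have hdd : ‖v - v'‖ ^ 2 = dr ^ 2 + ds ^ 2 := by
    rw [← real_inner_self_eq_norm_sq, hd]
    simp only [inner_sub_left, inner_sub_right, real_inner_smul_left, inner_smul_right, hee, hff,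
      hef, hfe]
    ring
  have hσf : ∀ w, σ w = w - (2 * ⟪v - v', w⟫ / ‖v - v'‖ ^ 2) • (v - v') := fun w => by
    rw [hσ, Submodule.reflection_orthogonal_apply, Submodule.reflection_singleton_apply]
    simp only [RCLike.ofReal_real_eq_id, id]
    module
  have hde : ⟪v - v', e⟫ = dr := by
    simp [hd, inner_sub_left, real_inner_smul_left, he, hfe]
  have hdf : ⟪v - v', f⟫ = -ds := by
    simp [hd, inner_sub_left, real_inner_smul_left, hf, hef]
  have hdx : ∀ x, ⟪v - v', x⟫ = dr * ⟪e, x⟫ - ds * ⟪f, x⟫ := fun x => by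
    simp [hd, inner_sub_left, real_inner_smul_left]
  have he' : ∀ x, ⟪σ e, x⟫ = ⟪e, x⟫ -
      2 * dr / (dr ^ 2 + ds ^ 2) * (dr * ⟪e, x⟫ - ds * ⟪f, x⟫) := fun x => by
    rw [hσf, inner_sub_left, real_inner_smul_left, hde, hdx, hdd]
  have hf' : ∀ x, ⟪σ f, x⟫ = ⟪f, x⟫ -
      2 * -ds / (dr ^ 2 + ds ^ 2) * (dr * ⟪e, x⟫ - ds * ⟪f, x⟫) := fun x => by
    rw [hσf, inner_sub_left, real_inner_smul_left, hdf, hdx, hdd]
  have hperp : ∀ w, ⟪w, e⟫ = 0 → ⟪w, f⟫ = 0 → σ w = w := fun w h1 h2 => by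
    rw [hσf, hdx w, real_inner_comm w e, real_inner_comm w f, h1, h2]
    simp
  have hmax : ∀ x, ⟪e, σ x⟫ ^ 2 + ⟪f, σ x⟫ ^ 2 = ⟪e, x⟫ ^ 2 + ⟪f, x⟫ ^ 2 := by
    intro x
    rw [hsym, hsym, he', hf']
    field_simp
    ring
  have hsign : ∀ x, ⟪v, x⟫ ^ 2 < ⟪v', x⟫ ^ 2 → ⟪e, x⟫ ^ 2 ≤ ⟪σ e, x⟫ ^ 2 := by
    intro x hx
    rw [he']
    simp only [hv, hv', inner_add_left, real_inner_smul_left] at hx
    exact circle_alg hr' hlt hss hn hx
  have hLmono : ∀ x, ⟪v, x⟫ ^ 2 < ⟪v', x⟫ ^ 2 → L x ≤ L (σ x) := fun x hx =>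
    hmono x (σ x) (hmax x).symm (fun w h1 h2 => by rw [hsym, hperp w h1 h2])
      (by rw [hsym]; exact hsign x hx)
  -- symmetrisation
  set T : E → E → ℝ := fun w x => hh b (|⟪w, x⟫| - L x) + hh b (-|⟪w, x⟫| - L x) with hT
  have hint : ∀ w : E, Integrable (fun x => hh b (⟪w, x⟫ - L x)) (stdGaussian E) := fun w => by
    refine integrable_linear_bound (((continuous_hh b).measurable).comp
      (((continuous_const.inner continuous_id).measurable).sub hL)) (A := ‖w‖ + C) (B := |hh b 0|)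
      fun x => ?_
    refine (abs_hh_le _ _).trans (add_le_add ?_ le_rfl)
    refine (abs_sub _ _).trans ?_
    rw [abs_of_nonneg (hL0 x), add_mul]
    exact add_le_add (abs_real_inner_le_norm _ _) (hLb x)
  have hTint : ∀ w : E, Integrable (T w) (stdGaussian E) ∧
      ∫ x, T w x ∂(stdGaussian E) = 2 * ∫ x, hh b (⟪w, x⟫ - L x) ∂(stdGaussian E) := by
    intro w
    have hT' : T w = fun x => hh b (⟪w, x⟫ - L x) + hh b (⟪-w, x⟫ - L x) := funext fun x => by
      rcases le_total 0 ⟪w, x⟫ with h | h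
      · simp [hT, abs_of_nonneg h, inner_neg_left]
      · simp [hT, abs_of_nonpos h, inner_neg_left, add_comm]
    refine ⟨hT' ▸ (hint w).add (hint (-w)), ?_⟩
    rw [hT', integral_add (hint w) (hint (-w))]
    have : ∫ x, hh b (⟪-w, x⟫ - L x) ∂(stdGaussian E) =
        ∫ x, hh b (⟪w, x⟫ - L x) ∂(stdGaussian E) := by
      conv_rhs => rw [← stdGaussian_map (LinearIsometryEquiv.neg ℝ (E := E))]
      rw [integral_map (by fun_prop)]
      · simp [inner_neg_left, inner_neg_right, hLe]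
      · exact (((continuous_hh b).measurable).comp
          (((continuous_const.inner continuous_id).measurable).sub hL)).aestronglyMeasurable
    rw [this, two_mul]
  set D := fun x => T v' x - T v x with hDf
  have hD1 : Integrable D (stdGaussian E) := (hTint v').1.sub (hTint v).1
  have hD2 : ∫ x, D x ∂(stdGaussian E) = ∫ x, D (σ x) ∂(stdGaussian E) := by
    conv_lhs => rw [← stdGaussian_map σ]
    rw [integral_map σ.continuous.aemeasurable]
    rw [stdGaussian_map σ]
    exact hD1.aestronglyMeasurable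
  have hD3 : Integrable (fun x => D (σ x)) (stdGaussian E) := by
    have := hD1
    rw [← stdGaussian_map σ] at this
    exact this.comp_measurable σ.continuous.measurable
  have hpos : ∀ x, 0 ≤ D x + D (σ x) := by
    intro x
    have key : ∀ y, ⟪v, y⟫ ^ 2 ≤ ⟪v', y⟫ ^ 2 → 0 ≤ D y + D (σ y) := by
      intro y hy
      have a1 : ⟪v', σ y⟫ = ⟪v, y⟫ := by rw [hsym, hσv']
      have a2 : ⟪v, σ y⟫ = ⟪v', y⟫ := by rw [hsym, hσv]
      simp only [hDf, hT, a1, a2]
      rcases eq_or_lt_of_le hy with h | h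
      · rw [(sq_eq_sq_iff_abs_eq_abs _ _).1 h]; simp
      · have := hh_submod b (abs_nonneg ⟪v, y⟫) (sq_le_sq.1 hy) (hL0 y) (hLmono y h)
        linarith
    rcases le_total (⟪v, x⟫ ^ 2) (⟪v', x⟫ ^ 2) with h | h
    · exact key x h
    · have := key (σ x) (by rw [hsym, hσv, hsym, hσv']; exact h)
      rw [hinv] at this
      linarith
  have h0 : 0 ≤ ∫ x, (D x + D (σ x)) ∂(stdGaussian E) := integral_nonneg hpos
  rw [integral_add hD1 hD3, ← hD2, integral_sub (hTint v').1 (hTint v).1, (hTint v').2,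
    (hTint v).2] at h0
  simp only [hv, hv', inner_add_left, real_inner_smul_left] at h0
  linarith

end Vale.Agent.P226.Core
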