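import Vale.Agent.P226.Interface
import Vale.Agent.P226.Core.Gauss

/-! # P226 core: from partitions to admissible configurations -/

namespace Vale.Agent.P226.Core

open MeasureTheory ProbabilityTheory Real
open scoped RealInnerProductSpace

variable {E : Type*} [NormedAddCommGroup E] [InnerProductSpace ℝ E]

/-- Some relabelling makes the fibre sums pairwise obtuse without decreasing the squared sum. -/
theorem exists_merge {K : ℕ} (z : Fin K → E) :
    ∃ σ : Fin K → Fin K,
      (∀ l m, l ≠ m → ⟪∑ a with σ a = l, z a, ∑ a with σ a = m, z a⟫ ≤ 0) ∧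
      ∑ l, ‖z l‖ ^ 2 ≤ ∑ l, ‖∑ a with σ a = l, z a‖ ^ 2 := by
  have : Nonempty (Fin K → Fin K) := ⟨id⟩
  obtain ⟨σ, hσ⟩ := Finite.exists_max
    (fun σ : Fin K → Fin K => ∑ l, ‖∑ a with σ a = l, z a‖ ^ 2)
  refine ⟨σ, fun l m hlm => ?_, ?_⟩
  · have h := hσ fun a => if σ a = m then l else σ a
    set g : Fin K → E := fun q => ∑ a with σ a = q, z a
    have hl : ∑ a with (if σ a = m then l else σ a) = l, z a = g l + g m := by
      simp only [g, Finset.sum_filter, ← Finset.sum_add_distrib]
      refine Finset.sum_congr rfl fun a _ => ?_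
      by_cases h1 : σ a = m <;> by_cases h2 : σ a = l <;> simp_all
    have hm : ∑ a with (if σ a = m then l else σ a) = m, z a = 0 := by
      simp only [Finset.sum_filter]
      refine Finset.sum_eq_zero fun a _ => ?_
      by_cases h1 : σ a = m <;> simp_all
    have ho : ∀ q, q ≠ l → q ≠ m →
        ∑ a with (if σ a = m then l else σ a) = q, z a = g q := fun q h1 h2 => by
      simp only [g, Finset.sum_filter]
      refine Finset.sum_congr rfl fun a _ => ?_
      by_cases h3 : σ a = m <;> simp_all [eq_comm]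
    rw [← sub_nonpos, ← Finset.sum_sub_distrib, Fintype.sum_eq_add l m hlm fun q hq => by
      rw [ho q hq.1 hq.2, sub_self], hl, hm, norm_add_sq_real, norm_zero] at h
    simp only [g] at h ⊢
    linarith
  · refine le_trans (le_of_eq ?_) (hσ id)
    simp [Finset.sum_filter]

theorem integrable_inner_left {n : ℕ} (v : EuclideanSpace ℝ (Fin n)) :
    Integrable (fun x => ⟪v, x⟫) (stdGaussian (EuclideanSpace ℝ (Fin n))) :=
  ((IsGaussian.integrable_id).norm.const_mul ‖v‖).mono'
    (continuous_const.inner continuous_id).aestronglyMeasurable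
    (ae_of_all _ fun x => by simpa using abs_real_inner_le_norm v x)

theorem integrable_sup {n K : ℕ} [NeZero K] (z : Fin K → EuclideanSpace ℝ (Fin n)) :
    Integrable (fun x => Finset.univ.sup' Finset.univ_nonempty fun i => ⟪z i, x⟫)
      (stdGaussian (EuclideanSpace ℝ (Fin n))) := by
  refine integrable_linear_bound ?_ (A := ∑ i, ‖z i‖) (B := 0) fun x => ?_
  · exact (Continuous.finset_sup'_apply Finset.univ_nonempty fun i _ =>
      continuous_const.inner continuous_id).measurable
  · rw [add_zero, Finset.sum_mul]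
    obtain ⟨i, -, hi⟩ := Finset.exists_mem_eq_sup' Finset.univ_nonempty fun i => ⟪z i, x⟫
    rw [hi]
    exact (abs_real_inner_le_norm _ _).trans
      (Finset.single_le_sum (f := fun i => ‖z i‖ * ‖x‖) (fun j _ => by positivity)
        (Finset.mem_univ i))

/-- A partition pairs with any configuration below the expected maximum. -/
theorem pairing_le {n K L : ℕ} [NeZero L] {A : Fin K → Set (EuclideanSpace ℝ (Fin n))}
    (hm : ∀ a, MeasurableSet (A a))
    (hu : ∀ᵐ x ∂(stdGaussian (EuclideanSpace ℝ (Fin n))), ∃! a, x ∈ A a)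
    (y : Fin L → EuclideanSpace ℝ (Fin n)) (σ : Fin K → Fin L) :
    ∑ a, ⟪y (σ a), ∫ x in A a, x ∂(stdGaussian (EuclideanSpace ℝ (Fin n)))⟫ ≤ emax y := by
  have h1 : ∀ a, ⟪y (σ a), ∫ x in A a, x ∂(stdGaussian (EuclideanSpace ℝ (Fin n)))⟫ =
      ∫ x, (A a).indicator (fun x => ⟪y (σ a), x⟫) x
        ∂(stdGaussian (EuclideanSpace ℝ (Fin n))) := fun a => by
    rw [integral_indicator (hm a)]
    exact (integral_inner (IsGaussian.integrable_id.restrict) (y (σ a))).symm
  simp only [h1]
  rw [← integral_finsetSum _ fun a _ => (integrable_inner_left _).indicator (hm a)]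
  refine integral_mono_ae (integrable_finsetSum _ fun a _ => (integrable_inner_left _).indicator (hm a))
    (integrable_sup y) ?_
  filter_upwards [hu] with x hx
  obtain ⟨a, ha, hau⟩ := hx
  rw [Fintype.sum_eq_single a fun b hb => Set.indicator_of_notMem (fun h => hb (hau b h)) _,
    Set.indicator_of_mem ha]
  exact Finset.le_sup' (fun i => ⟪y i, x⟫) (Finset.mem_univ _)

/-- Moments of a partition sum to zero. -/
theorem sum_moments {n K : ℕ} {A : Fin K → Set (EuclideanSpace ℝ (Fin n))}
    (hm : ∀ a, MeasurableSet (A a))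
    (hu : ∀ᵐ x ∂(stdGaussian (EuclideanSpace ℝ (Fin n))), ∃! a, x ∈ A a) :
    ∑ a, ∫ x in A a, x ∂(stdGaussian (EuclideanSpace ℝ (Fin n))) = 0 := by
  simp only [← integral_indicator (hm _)]
  have hid : Integrable (fun x : EuclideanSpace ℝ (Fin n) => x) (stdGaussian _) :=
    IsGaussian.integrable_id
  rw [← integral_finsetSum _ fun a _ => hid.indicator (hm a),
    ← integral_id_stdGaussian (E := EuclideanSpace ℝ (Fin n))]
  refine integral_congr_ae ?_
  filter_upwards [hu] with x hx
  obtain ⟨a, ha, hau⟩ := hx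
  rw [Fintype.sum_eq_single a fun b hb => Set.indicator_of_notMem (fun h => hb (hau b h)) _,
    Set.indicator_of_mem ha]

/-- An obtuse configuration is bounded through its padded and sorted copy. -/
theorem sumSq_le_of_emax (h : EmaxBound) {n K : ℕ} [NeZero K]
    (y : Fin K → EuclideanSpace ℝ (Fin n)) (hs : ∑ i, y i = 0)
    (ho : ∀ i j, i ≠ j → ⟪y i, y j⟫ ≤ 0) (hF : ∑ i, ‖y i‖ ^ 2 ≤ emax y) :
    ∑ i, ‖y i‖ ^ 2 ≤ 9 / (8 * π) := by
  set F := ∑ i, ‖y i‖ ^ 2 with hFdef
  rcases (show 0 ≤ F from Finset.sum_nonneg fun i _ => sq_nonneg _).eq_or_lt with h0 | h0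
  · rw [← h0]; positivity
  -- embedding in dimension `n + 5`
  set b := EuclideanSpace.basisFun (Fin (n + 5)) ℝ
  set em : EuclideanSpace ℝ (Fin n) → EuclideanSpace ℝ (Fin (n + 5)) :=
    fun v => ∑ j, v j • b (j.castAdd 5) with hem
  have hin : ∀ u v, ⟪em u, em v⟫ = ⟪u, v⟫ := fun u v => by
    simp only [hem, sum_inner, inner_sum, real_inner_smul_left, inner_smul_right,
      orthonormal_iff_ite.1 b.orthonormal]
    simp [PiLp.inner_apply, mul_comm]
  have hnorm : ∀ v, ‖em v‖ = ‖v‖ := fun v => by
    rw [@norm_eq_sqrt_real_inner _ _ _ (em v), hin, ← norm_eq_sqrt_real_inner]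
  set s := √(3 / F) with hsdef
  have hs0 : 0 < s := Real.sqrt_pos.2 (by positivity)
  set p : Fin (K + 4) → EuclideanSpace ℝ (Fin (n + 5)) :=
    fun i => Fin.addCases (fun i => s • em (y i)) (fun _ : Fin 4 => 0) i with hp
  set π' := Tuple.sort fun i => -‖p i‖
  have hp0 : ∑ i, p i = 0 := by
    rw [Fin.sum_univ_add]
    simp only [hp, Fin.addCases_left, Fin.addCases_right, Finset.sum_const_zero, add_zero,
      ← Finset.smul_sum]
    rw [smul_eq_zero]
    right
    simp only [hem]
    rw [Finset.sum_comm]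
    refine Finset.sum_eq_zero fun j _ => ?_
    rw [← Finset.sum_smul]
    have := congrArg (fun v : EuclideanSpace ℝ (Fin n) => v j) hs
    simp only [WithLp.ofLp_sum, Finset.sum_apply, WithLp.ofLp_zero, Pi.zero_apply] at this
    rw [this, zero_smul]
  have hpo : ∀ i j, i ≠ j → ⟪p i, p j⟫ ≤ 0 := by
    intro i j hij
    induction i using Fin.addCases with
    | right i => simp [hp]
    | left i =>
      induction j using Fin.addCases with
      | right j => simp [hp]
      | left j =>
        simp only [hp, Fin.addCases_left, real_inner_smul_left, inner_smul_right, hin]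
        exact mul_nonpos_of_nonneg_of_nonpos hs0.le (mul_nonpos_of_nonneg_of_nonpos hs0.le
          (ho i j fun h => hij (by rw [h])))
  have hpn : ∑ i, ‖p (π' i)‖ ^ 2 = 3 := by
    rw [Equiv.sum_comp π' fun i => ‖p i‖ ^ 2, Fin.sum_univ_add]
    simp only [hp, Fin.addCases_left, Fin.addCases_right, norm_zero, norm_smul, mul_pow, hnorm,
      Real.norm_of_nonneg hs0.le, ← Finset.mul_sum, ← hFdef]
    rw [hsdef, Real.sq_sqrt (by positivity)]
    field_simp
    simp
  have hadm : Admissible (k := K) (fun i => p (π' i)) := by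
    refine ⟨by omega, ?_, fun i j hij => hpo _ _ (π'.injective.ne hij), fun i j hij => ?_⟩
    · rw [Equiv.sum_comp π' p, hp0]
    · have := Tuple.monotone_sort (fun i => -‖p i‖) hij
      simpa using this
  have hb := h K (n + 5) (fun i => p (π' i)) hadm hpn
  have hsc : s * emax y ≤ emax fun i => p (π' i) := by
    have e1 : emax y = ∫ x, (Finset.univ.sup' Finset.univ_nonempty fun i => ⟪em (y i), x⟫)
        ∂(stdGaussian (EuclideanSpace ℝ (Fin (n + 5)))) :=
      integral_coords_eq y (fun i => em (y i)) (fun i j => (hin _ _).symm)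
        (F := fun v : Fin K → ℝ => Finset.univ.sup' Finset.univ_nonempty fun i => v i)
        (Continuous.finset_sup'_apply Finset.univ_nonempty fun i _ =>
          continuous_apply i).measurable
    rw [e1, ← integral_const_mul]
    refine integral_mono ((integrable_sup _).const_mul s) (integrable_sup _) fun x => ?_
    obtain ⟨i, -, hi⟩ := Finset.exists_mem_eq_sup' Finset.univ_nonempty fun i => ⟪em (y i), x⟫
    simp only [hi]
    refine le_trans (le_of_eq ?_) (Finset.le_sup' (fun i => ⟪p (π' i), x⟫)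
      (Finset.mem_univ (π'.symm (Fin.castAdd 4 i))))
    simp [hp, real_inner_smul_left]
  have h1 : s * F ≤ 3 * √3 / (2 * √(2 * π)) :=
    ((mul_le_mul_of_nonneg_left hF hs0.le).trans hsc).trans hb
  have h2 := pow_le_pow_left₀ (by positivity) h1 2
  rw [mul_pow, hsdef, Real.sq_sqrt (by positivity), div_pow, mul_pow, mul_pow,
    Real.sq_sqrt (by norm_num), Real.sq_sqrt (by positivity)] at h2
  field_simp at h2 ⊢
  nlinarith [h2, Real.pi_pos]

/-- Reduction of the propeller inequality to the bound on admissible configurations. -/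
theorem reduction (h : EmaxBound) (d k : ℕ) (A : Fin k → Set (EuclideanSpace ℝ (Fin d)))
    (hm : ∀ i, MeasurableSet (A i))
    (hd : Pairwise fun i j => AEDisjoint (stdGaussian (EuclideanSpace ℝ (Fin d))) (A i) (A j)) :
    ∑ i, ‖∫ x in A i, x ∂(stdGaussian (EuclideanSpace ℝ (Fin d)))‖ ^ 2 ≤ 9 / (8 * π) := by
  set γ := stdGaussian (EuclideanSpace ℝ (Fin d))
  set B : Fin (k + 1) → Set (EuclideanSpace ℝ (Fin d)) := Fin.snoc A (⋃ i, A i)ᶜ with hB
  have hBm : ∀ a, MeasurableSet (B a) := fun a => by
    induction a using Fin.lastCases with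
    | last => simpa [hB] using MeasurableSet.iInter fun i => (hm i).compl
    | cast i => simpa [hB] using hm i
  have hdis : ∀ᵐ x ∂γ, ∀ i j, i ≠ j → ¬(x ∈ A i ∧ x ∈ A j) := by
    refine ae_all_iff.2 fun i => ae_all_iff.2 fun j => ?_
    by_cases hij : i = j
    · exact ae_of_all _ fun x hne => absurd hij hne
    · filter_upwards [measure_eq_zero_iff_ae_notMem.1 (hd hij : AEDisjoint γ (A i) (A j))]
        with x hx _ hh
      exact hx hh
  have hBu : ∀ᵐ x ∂γ, ∃! a, x ∈ B a := by
    filter_upwards [hdis] with x hx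
    by_cases hex : ∃ i, x ∈ A i
    · obtain ⟨i, hi⟩ := hex
      refine ⟨i.castSucc, by simpa [hB] using hi, fun a ha => ?_⟩
      induction a using Fin.lastCases with
      | last => simp [hB] at ha; exact absurd hi (ha i)
      | cast j =>
        simp only [hB, Fin.snoc_castSucc] at ha
        exact congrArg _ (by_contra fun hne => hx j i hne ⟨ha, hi⟩)
    · refine ⟨Fin.last k, by simpa [hB] using hex, fun a ha => ?_⟩
      induction a using Fin.lastCases with
      | last => rfl
      | cast j =>
        simp only [hB, Fin.snoc_castSucc] at ha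
        exact absurd ⟨j, ha⟩ hex
  set w : Fin (k + 1) → EuclideanSpace ℝ (Fin d) := fun a => ∫ x in B a, x ∂γ with hw
  obtain ⟨σ, hob, hle⟩ := exists_merge w
  set y : Fin (k + 1) → EuclideanSpace ℝ (Fin d) := fun l => ∑ a with σ a = l, w a with hy
  have hys : ∑ l, y l = 0 := by
    simp only [hy]
    rw [Finset.sum_fiberwise]
    exact sum_moments hBm hBu
  have hyF : ∑ l, ‖y l‖ ^ 2 ≤ emax y := by
    refine le_trans (le_of_eq ?_) (pairing_le hBm hBu y σ)
    calc ∑ l, ‖y l‖ ^ 2 = ∑ l, ∑ a with σ a = l, ⟪y (σ a), w a⟫ := by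
          refine Finset.sum_congr rfl fun l _ => ?_
          rw [← real_inner_self_eq_norm_sq]
          conv_lhs => arg 2; simp only [hy]
          rw [inner_sum]
          exact Finset.sum_congr rfl fun a ha => by rw [(Finset.mem_filter.1 ha).2]
      _ = _ := Finset.sum_fiberwise _ σ _
  refine le_trans ?_ (hle.trans (sumSq_le_of_emax h y hys hob hyF))
  rw [Fin.sum_univ_castSucc (fun a => ‖w a‖ ^ 2)]
  simp [hw, hB]

end Vale.Agent.P226.Core
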