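import Vale.Agent.P226.Core.Cells

/-! # P226 core: one cell against the junction witness -/

namespace Vale.Agent.P226.Core

open MeasureTheory ProbabilityTheory Real WithLp
open scoped RealInnerProductSpace

variable {c δ : ℝ}

theorem measurable_WM : Measurable (WM c δ) := by
  have := measurable_rad (n := 3)
  unfold WM
  fun_prop

theorem rad_sq {n : ℕ} (y : Fin n → ℝ) : rad y ^ 2 = ∑ i, y i ^ 2 :=
  Real.sq_sqrt (Finset.sum_nonneg fun _ _ => sq_nonneg _)

theorem sq_div_rad_le (y : Fin 3 → ℝ) : y 2 ^ 2 / rad y ≤ rad y := by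
  rcases (rad_nonneg y).eq_or_lt with h | h
  · simp [← h]
  · rw [div_le_iff₀ h, ← sq_abs]
    nlinarith [abs_le_rad y 2, abs_nonneg (y 2)]

theorem WM_nonneg (hδ : 0 ≤ δ) (hcd : δ ≤ c) (y : Fin 3 → ℝ) : 0 ≤ WM c δ y := by
  have h1 := mul_le_mul_of_nonneg_left (sq_div_rad_le y) hδ
  have h2 := mul_le_mul_of_nonneg_right hcd (rad_nonneg y)
  rw [WM, mul_div_assoc]
  linarith

theorem WM_le (hδ : 0 ≤ δ) (y : Fin 3 → ℝ) : WM c δ y ≤ c * rad y :=
  sub_le_self _ (div_nonneg (mul_nonneg hδ (sq_nonneg _)) (rad_nonneg _))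

theorem WM_neg (y : Fin 3 → ℝ) : WM c δ (fun i => -y i) = WM c δ y := by
  simp [WM, rad_neg]

theorem WM_congr {x y : Fin 3 → ℝ} (h : rad x = rad y) (h2 : x 2 ^ 2 = y 2 ^ 2) :
    WM c δ x = WM c δ y := by rw [WM, WM, h, h2]

theorem PsiM_plane (p : Fin 3 → ℝ) (w : ℝ) :
    ∫ y, hh w (∑ i, p i * y i - WM c δ y) ∂(gaussPi 3) =
      PsiM c δ (√(p 0 ^ 2 + p 1 ^ 2)) (p 2) w := by
  have h := gaussPi_rotate (p := p) (q := ![√(p 0 ^ 2 + p 1 ^ 2), 0, p 2])
    (H := fun a y => hh w (a - WM c δ y)) ?_ ?_ ?_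
  · rw [h, PsiM]
    refine integral_congr_ae (ae_of_all _ fun y => ?_)
    simp [Fin.sum_univ_three]
  · simp [Fin.sum_univ_three, Real.sq_sqrt (add_nonneg (sq_nonneg (p 0)) (sq_nonneg (p 1)))]
  · exact fun q => (continuous_hh w).measurable.comp
      ((Finset.measurable_sum _ fun i _ => (measurable_pi_apply i).const_mul _).sub measurable_WM)
  · intro a Y Z h h2 _
    have h2' : Y 2 = Z 2 := h2 2 (by simp)
    simp only [WM_congr (x := ofLp Y) (y := ofLp Z) (by rw [rad_eq_norm, rad_eq_norm, h])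
      (by rw [h2'])]

theorem PsiM_abs (r a w : ℝ) : PsiM c δ r a w = PsiM c δ r |a| w := by
  rcases le_total 0 a with ha | ha
  · rw [abs_of_nonneg ha]
  have h := gaussPi_rotate (p := ![r, 0, a]) (q := ![r, 0, |a|])
    (H := fun a y => hh w (a - WM c δ y)) ?_ ?_ ?_
  · simpa [PsiM, Fin.sum_univ_three] using h
  · simp [Fin.sum_univ_three]
  · exact fun q => (continuous_hh w).measurable.comp
      ((Finset.measurable_sum _ fun i _ => (measurable_pi_apply i).const_mul _).sub measurable_WM)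
  · intro b Y Z h h2 _
    have h0 : Y 0 = Z 0 := h2 0 (by simp)
    have h1 : Y 1 = Z 1 := h2 1 (by simp)
    have hr : rad (ofLp Y) = rad (ofLp Z) := by rw [rad_eq_norm, rad_eq_norm, h]
    have h3 := rad_sq (ofLp Y)
    rw [hr, rad_sq, Fin.sum_univ_three, Fin.sum_univ_three, h0, h1] at h3
    simp only [WM_congr (x := ofLp Y) (y := ofLp Z) hr (by linarith)]

theorem PsiM_eq (r a w : ℝ) : PsiM c δ r a w =
    ∫ Y, hh w (r * ⟪EuclideanSpace.single 0 (1 : ℝ), Y⟫
      + a * ⟪EuclideanSpace.single 2 (1 : ℝ), Y⟫ - WM c δ (ofLp Y))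
      ∂(stdGaussian (EuclideanSpace ℝ (Fin 3))) := by
  rw [PsiM, gaussPi_eq]
  · simp [EuclideanSpace.inner_single_left]
  · exact (continuous_hh w).measurable.comp
      ((((measurable_pi_apply 0).const_mul r).add ((measurable_pi_apply 2).const_mul a)).sub
        measurable_WM)

/-- At fixed radius, weight moves from the plane to the axis. -/
theorem PsiM_mono (hδ : 0 ≤ δ) (hcd : δ ≤ c) {r s r' s' : ℝ} (hr' : 0 ≤ r') (hrr : r' ≤ r)
    (hs : 0 ≤ s) (hs' : 0 ≤ s') (hn : r ^ 2 + s ^ 2 = r' ^ 2 + s' ^ 2) (w : ℝ) :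
    PsiM c δ r s w ≤ PsiM c δ r' s' w := by
  rw [PsiM_eq, PsiM_eq]
  refine circle (by simp) (by simp) ?_ hr' hrr hs hs' hn w ?_
    (fun Y => WM_nonneg hδ hcd _) (fun Y => ?_) (C := c) (fun Y => ?_) ?_
  · simp [EuclideanSpace.inner_single_left]
  · exact measurable_WM.comp (WithLp.measurable_ofLp 2 _)
  · exact WM_neg _
  · rw [← rad_eq_norm]
    exact WM_le hδ _
  · intro x y hs0 ho he
    simp only [EuclideanSpace.inner_single_left, map_one, one_mul] at hs0 he
    have h1 := ho (EuclideanSpace.single 1 (1 : ℝ)) (by simp [EuclideanSpace.inner_single_left])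
      (by simp [EuclideanSpace.inner_single_left])
    simp only [EuclideanSpace.inner_single_left, map_one, one_mul] at h1
    have hrad : rad (ofLp x) = rad (ofLp y) := by
      unfold rad
      rw [Fin.sum_univ_three, Fin.sum_univ_three, h1]
      congr 1
      linarith
    rw [WM, WM, hrad]
    have : δ * (ofLp y) 2 ^ 2 ≤ δ * (ofLp x) 2 ^ 2 := mul_le_mul_of_nonneg_left (by linarith) hδ
    have := div_le_div_of_nonneg_right this (rad_nonneg (ofLp y))
    linarith

theorem WM_mono_axis (hδ : 0 ≤ δ) (hcd : 2 * δ ≤ c) {x y : Fin 3 → ℝ} (h0 : x 0 = y 0)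
    (h1 : x 1 = y 1) (h2 : x 2 ^ 2 ≤ y 2 ^ 2) : WM c δ x ≤ WM c δ y := by
  have hle : rad x ≤ rad y := by
    unfold rad
    refine Real.sqrt_le_sqrt ?_
    rw [Fin.sum_univ_three, Fin.sum_univ_three, h0, h1]
    linarith
  rcases (rad_nonneg x).eq_or_lt with hx | hx
  · have : WM c δ x = 0 := by simp [WM, ← hx]
    rw [this]
    exact WM_nonneg hδ (by linarith) y
  have hy : 0 < rad y := hx.trans_le hle
  have ex : x 2 ^ 2 = rad x ^ 2 - (y 0 ^ 2 + y 1 ^ 2) := by
    rw [rad_sq, Fin.sum_univ_three, h0, h1]; ring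
  have ey : y 2 ^ 2 = rad y ^ 2 - (y 0 ^ 2 + y 1 ^ 2) := by
    rw [rad_sq, Fin.sum_univ_three]; ring
  set q := y 0 ^ 2 + y 1 ^ 2
  have hq : q ≤ rad x * rad y := by
    have : q ≤ rad x ^ 2 := by nlinarith [sq_nonneg (x 2), ex]
    exact this.trans (by rw [sq]; exact mul_le_mul_of_nonneg_left hle hx.le)
  have key : WM c δ y - WM c δ x =
      (rad y - rad x) * (c - δ - δ * (q / (rad x * rad y))) := by
    rw [WM, WM, ex, ey]
    field_simp
    ring
  have h3 : δ * (q / (rad x * rad y)) ≤ δ * 1 :=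
    mul_le_mul_of_nonneg_left ((div_le_one (mul_pos hx hy)).2 hq) hδ
  have h4 : 0 ≤ (rad y - rad x) * (c - δ - δ * (q / (rad x * rad y))) :=
    mul_nonneg (by linarith) (by linarith)
  linarith

/-- Without planar part, weight moves from the axis to the noise. -/
theorem PsiM_shift (hδ : 0 ≤ δ) (hcd : 2 * δ ≤ c) {s w : ℝ} (hs : 0 ≤ s) (hw : 0 ≤ w) :
    PsiM c δ 0 s w ≤ PsiM c δ 0 0 (√(s ^ 2 + w ^ 2)) := by
  have hcd' : δ ≤ c := by linarith
  have key : ∀ a b : ℝ, PsiM c δ 0 a b = ∫ Y, hh 0 (a * ⟪EuclideanSpace.single 2 (1 : ℝ), Y⟫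
      + b * ⟪EuclideanSpace.single (Fin.last 3) (1 : ℝ), Y⟫
      - WM c δ (fun i : Fin 3 => (ofLp Y) i.castSucc))
        ∂(stdGaussian (EuclideanSpace ℝ (Fin 4))) := by
    intro a b
    have hm : Measurable fun y : Fin 3 → ℝ => 0 * y 0 + a * y 2 - WM c δ y :=
      have h2 : Measurable fun y : Fin 3 → ℝ => y 2 := measurable_pi_apply 2
      have h0 : Measurable fun y : Fin 3 → ℝ => y 0 := measurable_pi_apply 0
      ((h0.const_mul 0).add (h2.const_mul a)).sub measurable_WM
    rw [PsiM, ← integral_snoc b (integrable_gaussPi hm (A := |a| + c) (B := 0) fun y => ?_)]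
    · rw [gaussPi_eq]
      · refine integral_congr_ae (ae_of_all _ fun Y => ?_)
        simp only [hh_zero, EuclideanSpace.inner_single_left, map_one, one_mul, zero_mul,
          zero_add]
        congr 1
        simp only [show (2 : Fin 3).castSucc = (2 : Fin 4) from rfl]
        ring
      · have h1 : Measurable fun y : Fin 4 → ℝ => fun i : Fin 3 => y i.castSucc :=
          measurable_pi_lambda _ fun i => measurable_pi_apply _
        exact ((hm.comp h1).add ((measurable_pi_apply (Fin.last 3)).const_mul b)).max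
          measurable_const
    · refine (abs_sub _ _).trans ?_
      rw [zero_mul, zero_add, abs_mul, abs_of_nonneg (WM_nonneg hδ hcd' y), add_zero, add_mul]
      exact add_le_add (mul_le_mul_of_nonneg_left (abs_le_rad y 2) (abs_nonneg _)) (WM_le hδ y)
  rw [key, key]
  refine circle (by simp) (by simp) ?_ le_rfl hs hw (Real.sqrt_nonneg _) ?_ 0 ?_
    (fun Y => WM_nonneg hδ hcd' _) (fun Y => ?_) (C := c) (fun Y => ?_) ?_
  · simp [EuclideanSpace.inner_single_left, Fin.ext_iff]
  · rw [Real.sq_sqrt (by positivity)]; ring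
  · exact measurable_WM.comp (measurable_pi_lambda _ fun i =>
      (measurable_pi_apply _).comp (WithLp.measurable_ofLp 2 _))
  · simpa using WM_neg (c := c) (δ := δ) (fun i : Fin 3 => (ofLp Y) i.castSucc)
  · rw [← rad_eq_norm]
    exact (WM_le hδ _).trans (mul_le_mul_of_nonneg_left (rad_init_le _) (by linarith))
  · intro x y _ ho he
    simp only [EuclideanSpace.inner_single_left, map_one, one_mul] at he
    have hi : ∀ i : Fin 4, i ≠ 2 → i ≠ Fin.last 3 → x i = y i := fun i a b => by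
      have := ho (EuclideanSpace.single i (1 : ℝ))
        (by simp [EuclideanSpace.inner_single_left, a])
        (by simpa [EuclideanSpace.inner_single_left] using b)
      simpa [EuclideanSpace.inner_single_left] using this
    refine WM_mono_axis hδ hcd (hi _ (by decide) (by decide)) (hi _ (by decide) (by decide)) ?_
    exact he

end Vale.Agent.P226.Core
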