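import Vale.Agent.P226.Core.Frame
import Vale.Agent.P226.Core.CellsM

/-! # P226 core: the dual witnesses -/

namespace Vale.Agent.P226.Core

open MeasureTheory ProbabilityTheory Real
open scoped RealInnerProductSpace

variable {k n : ℕ} {z : Fin (k + 4) → EuclideanSpace ℝ (Fin n)}

/-- Pairwise obtuse vectors have a short sum. -/
theorem norm_sum_sq_le {ι E : Type*} [NormedAddCommGroup E] [InnerProductSpace ℝ E] [DecidableEq ι]
    (s : Finset ι) (x : ι → E) (h : ∀ i j, i ≠ j → ⟪x i, x j⟫ ≤ 0) :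
    ‖∑ i ∈ s, x i‖ ^ 2 ≤ ∑ i ∈ s, ‖x i‖ ^ 2 := by
  rw [← real_inner_self_eq_norm_sq, sum_inner]
  refine Finset.sum_le_sum fun i hi => ?_
  rw [inner_sum, ← Finset.add_sum_erase s _ hi, real_inner_self_eq_norm_sq]
  have : ∑ j ∈ s.erase i, ⟪x i, x j⟫ ≤ 0 :=
    Finset.sum_nonpos fun j hj => h i j (Finset.ne_of_mem_erase hj).symm
  linarith

/-- The common residual of the big cells is controlled by the small cells. -/
theorem tail_bound (hz : Admissible z) {m : ℕ} {e : Fin m → EuclideanSpace ℝ (Fin n)}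
    (he : Orthonormal ℝ e) {nb : ℕ} (hnb : nb ≤ k + 4) (hpos : 0 < nb)
    (h : ∀ i : Fin (k + 4), (i : ℕ) < nb → res e (z i) = res e (z 0)) :
    ‖res e (z 0)‖ ^ 2 ≤ tailSq z nb / (nb : ℝ) ^ 2 := by
  rw [le_div_iff₀ (by positivity)]
  set small := Finset.univ.filter fun i : Fin (k + 4) => ¬(i : ℕ) < nb with hsm
  set big := Finset.univ.filter fun i : Fin (k + 4) => (i : ℕ) < nb with hbg
  have hcard : big.card = nb := by
    have : big = (Finset.univ : Finset (Fin nb)).map (Fin.castLEEmb hnb) := by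
      ext i
      simp only [hbg, Finset.mem_filter, Finset.mem_univ, true_and, Finset.mem_map]
      exact ⟨fun hi => ⟨⟨i, hi⟩, Fin.ext rfl⟩, by rintro ⟨j, rfl⟩; exact j.2⟩
    simp [this]
  have h0 : (nb : ℝ) • res e (z 0) + res e (∑ i ∈ small, z i) = 0 := by
    have hall : res e (∑ i, z i) = 0 := by simp [hz.sum_zero, res]
    rw [res_sum, ← Finset.sum_filter_add_sum_filter_not Finset.univ
      (fun i : Fin (k + 4) => (i : ℕ) < nb)] at hall
    rw [res_sum, ← hall, Finset.sum_congr rfl fun i hi => h i (Finset.mem_filter.1 hi).2,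
      Finset.sum_const, hcard, Nat.cast_smul_eq_nsmul]
  have h1 : (nb : ℝ) * ‖res e (z 0)‖ = ‖res e (∑ i ∈ small, z i)‖ := by
    have := congrArg norm (eq_neg_of_add_eq_zero_left h0)
    rwa [norm_smul, norm_neg, Real.norm_of_nonneg (Nat.cast_nonneg _)] at this
  have h2 : tailSq z nb = ∑ i ∈ small, ‖z i‖ ^ 2 := by
    rw [tailSq, hsm, Finset.sum_filter]
    exact Finset.sum_congr rfl fun i _ => if_congr not_lt.symm rfl rfl
  calc ‖res e (z 0)‖ ^ 2 * (nb : ℝ) ^ 2 = ((nb : ℝ) * ‖res e (z 0)‖) ^ 2 := by ring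
    _ ≤ ‖∑ i ∈ small, z i‖ ^ 2 := by
        rw [h1]
        exact pow_le_pow_left₀ (norm_nonneg _) (norm_res_le e he _) 2
    _ ≤ _ := h2 ▸ norm_sum_sq_le small z hz.obtuse

theorem tailSq_nonneg (m : ℕ) : 0 ≤ tailSq z m :=
  Finset.sum_nonneg fun i _ => by split <;> positivity

/-- The radial witness in dimension `m + 1`. -/
theorem witnessG (m : ℕ) (hm : m ≤ 2) (hz : Admissible z) {c : ℝ} (hc : 0 < c) :
    emax z ≤ c * (∫ y, rad y ∂(gaussPi (m + 1))) + ∑ i : Fin (k + 4), (if (i : ℕ) < m + 2 then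
      bigTerm (PsiG m c) (‖z i‖ ^ 2) (tailSq z (m + 2) / ((m + 2 : ℕ) : ℝ) ^ 2)
      else PsiG m c 0 ‖z i‖) := by
  have hd := hz.dim
  obtain ⟨e, he, -, hres⟩ := exists_frame (show m + 1 ≤ n by omega)
    (fun j : Fin (m + 1) => z ⟨(j : ℕ) + 1, by omega⟩ - z 0)
  have hcom : ∀ i : Fin (k + 4), (i : ℕ) < m + 2 → res e (z i) = res e (z 0) := by
    intro i hi
    rcases Nat.eq_zero_or_pos (i : ℕ) with h | h
    · rw [Fin.ext (a := i) (b := 0) h]
    · have := hres ⟨(i : ℕ) - 1, by omega⟩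
      rw [res_sub, sub_eq_zero] at this
      exact (congrArg (fun j => res e (z j)) (Fin.ext (Nat.sub_add_cancel h))).symm.trans this
  refine (emax_le z he (measurable_rad.const_mul c) hc.le fun y => le_of_eq
    (abs_of_nonneg (mul_nonneg hc.le (rad_nonneg y)))).trans ?_
  rw [integral_const_mul]
  refine add_le_add le_rfl (Finset.sum_le_sum fun i _ => ?_)
  rw [PsiG_rotate]
  have hv : rad (fun j => ⟪e j, z i⟫) ^ 2 + ‖res e (z i)‖ ^ 2 = ‖z i‖ ^ 2 := by
    rw [rad_sq, norm_res_sq e he]; ring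
  split_ifs with hi
  · set τ := min (‖z i‖ ^ 2) (tailSq z (m + 2) / ((m + 2 : ℕ) : ℝ) ^ 2)
    have hτ : ‖res e (z i)‖ ^ 2 ≤ τ := le_min (by nlinarith [sq_nonneg (rad fun j => ⟪e j, z i⟫)])
      (by rw [hcom i hi]; exact tail_bound hz he (by omega) (by omega) hcom)
    have hτ0 : 0 ≤ τ := (sq_nonneg _).trans hτ
    refine PsiG_mono m hc.le (Real.sqrt_nonneg _) ?_ (norm_nonneg _) (Real.sqrt_nonneg _) ?_
    · rw [Real.sqrt_le_left (rad_nonneg _)]; linarith
    · rw [Real.sq_sqrt (sub_nonneg.2 (min_le_left _ _)), Real.sq_sqrt hτ0, hv]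
      ring
  · exact PsiG_mono m hc.le le_rfl (rad_nonneg _) (norm_nonneg _) (norm_nonneg _)
      (by rw [hv]; ring)

theorem witness3_of (hmom : Moments) : Witness3 := fun k n z hz c hc => by
  have h : emax z ≤ c * (∫ y, rad y ∂(gaussPi 3)) + ∑ i : Fin (k + 4), (if (i : ℕ) < 4 then
      bigTerm (Psi3 c) (‖z i‖ ^ 2) (tailSq z 4 / ((4 : ℕ) : ℝ) ^ 2) else Psi3 c 0 ‖z i‖) :=
    witnessG 2 le_rfl hz hc
  rw [hmom.1] at h
  convert h using 8
  norm_num

theorem witness2_of (hmom : Moments) : Witness2 := fun k n z hz c hc => by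
  have h : emax z ≤ c * (∫ y, rad y ∂(gaussPi 2)) + ∑ i : Fin (k + 4), (if (i : ℕ) < 3 then
      bigTerm (Psi2 c) (‖z i‖ ^ 2) (tailSq z 3 / ((3 : ℕ) : ℝ) ^ 2) else Psi2 c 0 ‖z i‖) :=
    witnessG 1 (by norm_num) hz hc
  rw [hmom.2.1] at h
  convert h using 8
  norm_num

/-- The junction witness. -/
theorem witnessM_of (hmom : Moments) : WitnessM := fun k n z hz c δ hδ hcd hc => by
  have hd := hz.dim
  have hcd' : δ ≤ c := by linarith
  set z1 := z ⟨1, by omega⟩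
  set z2 := z ⟨2, by omega⟩
  set z3 := z ⟨3, by omega⟩
  obtain ⟨e, he, htri, hres⟩ := exists_frame (show 2 + 1 ≤ n by omega)
    (![z1 - z 0, z2 - z 0, z3] : Fin 3 → EuclideanSpace ℝ (Fin n))
  have hcom : ∀ i : Fin (k + 4), (i : ℕ) < 3 →
      res e (z i) = res e (z 0) ∧ ⟪e 2, z i⟫ = ⟪e 2, z 0⟫ := by
    intro i hi
    obtain h | h | h : (i : ℕ) = 0 ∨ (i : ℕ) = 1 ∨ (i : ℕ) = 2 := by omega
    · rw [Fin.ext (a := i) (b := 0) h]; exact ⟨rfl, rfl⟩
    · rw [Fin.ext (a := i) (b := ⟨1, by omega⟩) h]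
      have a := hres 0
      have b := htri 0 2 (by decide)
      simp only [Matrix.cons_val_zero, res_sub, inner_sub_right, sub_eq_zero] at a b
      exact ⟨a, b⟩
    · rw [Fin.ext (a := i) (b := ⟨2, by omega⟩) h]
      have a := hres 1
      have b := htri 1 2 (by decide)
      simp only [Matrix.cons_val_one, Matrix.cons_val_zero, res_sub, inner_sub_right,
        sub_eq_zero] at a b
      exact ⟨a, b⟩
  set e' : Fin 2 → EuclideanSpace ℝ (Fin n) := fun j => e j.castSucc with he'def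
  have he' : Orthonormal ℝ e' := he.comp _ (Fin.castSucc_injective 2)
  have hcom' : ∀ i : Fin (k + 4), (i : ℕ) < 3 → res e' (z i) = res e' (z 0) := by
    intro i hi
    obtain ⟨a, b⟩ := hcom i hi
    rw [he'def, res_castSucc, res_castSucc, a, show (Fin.last 2 : Fin 3) = 2 from rfl, b]
  set β := ‖res e (z 0)‖
  refine ⟨fun i => if (i : ℕ) < 3 then √(min (‖z i‖ ^ 2) (tailSq z 3 / 9) - β ^ 2) else 0,
    fun i => ?_, ?_⟩
  · have h0 : 0 ≤ min (‖z i‖ ^ 2) (tailSq z 3 / 9) :=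
      le_min (sq_nonneg _) (div_nonneg (tailSq_nonneg _) (by norm_num))
    dsimp only
    split_ifs
    · rcases le_total 0 (min (‖z i‖ ^ 2) (tailSq z 3 / 9) - β ^ 2) with h | h
      · rw [Real.sq_sqrt h]; linarith [sq_nonneg β]
      · rw [Real.sqrt_eq_zero_of_nonpos h]; simpa using h0
    · simpa using h0
  refine (emax_le z he (W := WM c δ) measurable_WM (C := c) hc.le fun y => ?_).trans ?_
  · rw [abs_of_nonneg (WM_nonneg hδ hcd' y)]; exact WM_le hδ y
  refine add_le_add ?_ (Finset.sum_le_sum fun i _ => ?_)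
  · have hr : Integrable (fun y : Fin 3 → ℝ => rad y) (gaussPi 3) :=
      integrable_gaussPi measurable_rad (A := 1) (B := 0) fun y => by
        simp [abs_of_nonneg (rad_nonneg y)]
    have h2 : Measurable fun y : Fin 3 → ℝ => y 2 := measurable_pi_apply 2
    have hq : Integrable (fun y : Fin 3 → ℝ => y 2 ^ 2 / rad y) (gaussPi 3) :=
      integrable_gaussPi ((h2.pow_const 2).div measurable_rad) (A := 1) (B := 0) fun y => by
        rw [abs_of_nonneg (div_nonneg (sq_nonneg _) (rad_nonneg _)), one_mul, add_zero]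
        exact sq_div_rad_le y
    simp only [WM, mul_div_assoc]
    rw [integral_sub (hr.const_mul c) (hq.const_mul δ), integral_const_mul, integral_const_mul,
      hmom.1, hmom.2.2]
    linarith
  rw [PsiM_plane, PsiM_abs]
  set r := √(⟪e 0, z i⟫ ^ 2 + ⟪e 1, z i⟫ ^ 2)
  have hr0 : 0 ≤ r := Real.sqrt_nonneg _
  have hr2 : r ^ 2 = ⟪e 0, z i⟫ ^ 2 + ⟪e 1, z i⟫ ^ 2 := Real.sq_sqrt (by positivity)
  have hv : r ^ 2 + |⟪e 2, z i⟫| ^ 2 + ‖res e (z i)‖ ^ 2 = ‖z i‖ ^ 2 := by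
    rw [norm_res_sq e he, Fin.sum_univ_three, hr2, sq_abs]; ring
  split_ifs with hi hi3
  · have hb : ‖res e (z i)‖ = β := by rw [(hcom i hi).1]
    rw [hb] at hv
    set τ := min (‖z i‖ ^ 2) (tailSq z 3 / 9)
    have hτ : |⟪e 2, z i⟫| ^ 2 + β ^ 2 ≤ τ := by
      refine le_min (by nlinarith [sq_nonneg r]) ?_
      have h := tail_bound hz he' (show 3 ≤ k + 4 by omega) (by norm_num) hcom'
      rw [← hcom' i hi, norm_res_sq e' he', Fin.sum_univ_two] at h
      simp only [he'def, Fin.castSucc_zero, show (1 : Fin 2).castSucc = (1 : Fin 3) from rfl] at h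
      norm_num at h
      linarith
    have hτ0 : 0 ≤ τ := le_trans (by positivity) hτ
    have hs : 0 ≤ τ - β ^ 2 := by linarith [sq_nonneg |⟪e 2, z i⟫|]
    rw [hb, bigTerm]
    simp only [hi, if_true]
    rw [Real.sq_sqrt hτ0, Real.sq_sqrt hs, sub_sub_cancel, Real.sqrt_sq (norm_nonneg _)]
    refine PsiM_mono hδ hcd' (Real.sqrt_nonneg _) ?_ (abs_nonneg _) (Real.sqrt_nonneg _) ?_ β
    · rw [Real.sqrt_le_left hr0]
      linarith
    · rw [Real.sq_sqrt (sub_nonneg.2 (min_le_left _ _)), Real.sq_sqrt hs]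
      linarith
  · have hz0 : res e (z i) = 0 := by
      rw [Fin.ext (a := i) (b := ⟨3, by omega⟩) hi3]
      exact hres 2
    rw [hz0, norm_zero] at hv ⊢
    exact PsiM_mono hδ hcd' le_rfl hr0 (abs_nonneg _) (norm_nonneg _) (by linarith) 0
  · refine (PsiM_mono hδ hcd' (s' := √(r ^ 2 + |⟪e 2, z i⟫| ^ 2)) le_rfl hr0 (abs_nonneg _)
      (Real.sqrt_nonneg _) ?_ _).trans ?_
    · rw [Real.sq_sqrt (show 0 ≤ r ^ 2 + |⟪e 2, z i⟫| ^ 2 by positivity)]; ring
    refine (PsiM_shift hδ hcd (Real.sqrt_nonneg _) (norm_nonneg _)).trans (le_of_eq ?_)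
    rw [Real.sq_sqrt (show 0 ≤ r ^ 2 + |⟪e 2, z i⟫| ^ 2 by positivity), hv,
      Real.sqrt_sq (norm_nonneg _)]

end Vale.Agent.P226.Core
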