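import Vale.Agent.P226.Core.Gauss

/-! # P226 core: one cell against a radial witness -/

namespace Vale.Agent.P226.Core

open MeasureTheory ProbabilityTheory Real WithLp
open scoped RealInnerProductSpace

theorem rad_nonneg {n : ℕ} (y : Fin n → ℝ) : 0 ≤ rad y := Real.sqrt_nonneg _

theorem rad_eq_norm {n : ℕ} (Y : EuclideanSpace ℝ (Fin n)) : rad (ofLp Y) = ‖Y‖ := by
  simp [rad, EuclideanSpace.norm_eq]

theorem measurable_rad {n : ℕ} : Measurable (rad (n := n)) := by
  unfold rad; fun_prop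

theorem abs_le_rad {n : ℕ} (y : Fin n → ℝ) (i : Fin n) : |y i| ≤ rad y := by
  rw [← Real.sqrt_sq_eq_abs]
  exact Real.sqrt_le_sqrt (Finset.single_le_sum (f := fun j => y j ^ 2) (fun j _ => sq_nonneg _)
    (Finset.mem_univ i))

theorem rad_init_le {m : ℕ} (y : Fin (m + 1) → ℝ) : rad (fun i => y i.castSucc) ≤ rad y := by
  unfold rad
  refine Real.sqrt_le_sqrt ?_
  rw [Fin.sum_univ_castSucc (fun i => y i ^ 2)]
  exact le_add_of_nonneg_right (sq_nonneg _)

theorem rad_neg {n : ℕ} (y : Fin n → ℝ) : rad (fun i => -y i) = rad y := by simp [rad]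

theorem gaussPi_eq {n : ℕ} {F : (Fin n → ℝ) → ℝ} (hF : Measurable F) :
    ∫ y, F y ∂(gaussPi n) = ∫ Y, F (ofLp Y) ∂(stdGaussian (EuclideanSpace ℝ (Fin n))) := by
  rw [← map_pi_eq_stdGaussian, integral_map (WithLp.measurable_toLp 2 _).aemeasurable]
  exact (hF.comp (WithLp.measurable_ofLp 2 _)).aestronglyMeasurable

theorem integrable_gaussPi {n : ℕ} {F : (Fin n → ℝ) → ℝ} (hF : Measurable F) {A B : ℝ}
    (h : ∀ y, |F y| ≤ A * rad y + B) : Integrable F (gaussPi n) := by
  have := integrable_linear_bound (μ := stdGaussian (EuclideanSpace ℝ (Fin n)))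
    (f := fun Y => F (ofLp Y)) (hF.comp (WithLp.measurable_ofLp 2 _))
    (fun Y => by rw [← rad_eq_norm]; exact h _)
  rw [← map_pi_eq_stdGaussian, integrable_map_measure ?_
    (WithLp.measurable_toLp 2 _).aemeasurable] at this
  · exact this
  · exact (hF.comp (WithLp.measurable_ofLp 2 _)).aestronglyMeasurable

/-- An isometry of `ℝⁿ` does not change Gaussian integrals. -/
theorem gaussPi_isometry {n : ℕ} (σ : EuclideanSpace ℝ (Fin n) ≃ₗᵢ[ℝ] EuclideanSpace ℝ (Fin n))
    {F G : (Fin n → ℝ) → ℝ} (hF : Measurable F) (hG : Measurable G)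
    (h : ∀ Y, F (ofLp (σ Y)) = G (ofLp Y)) : ∫ y, F y ∂(gaussPi n) = ∫ y, G y ∂(gaussPi n) := by
  rw [gaussPi_eq hF, gaussPi_eq hG]
  conv_lhs => rw [← stdGaussian_map σ]
  rw [integral_map σ.continuous.aemeasurable]
  · exact integral_congr_ae (ae_of_all _ h)
  · exact (hF.comp (WithLp.measurable_ofLp 2 _)).aestronglyMeasurable

/-- Swapping two linear forms of the same norm. -/
theorem gaussPi_rotate {n : ℕ} {p q : Fin n → ℝ} (hn : ∑ i, p i ^ 2 = ∑ i, q i ^ 2)
    {H : ℝ → (Fin n → ℝ) → ℝ} (hH : ∀ p : Fin n → ℝ, Measurable fun y => H (∑ i, p i * y i) y)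
    (hinv : ∀ a (Y Z : EuclideanSpace ℝ (Fin n)), ‖Y‖ = ‖Z‖ →
      (∀ i, p i = q i → Y i = Z i) →
      (∀ w : EuclideanSpace ℝ (Fin n), ⟪toLp 2 p - toLp 2 q, w⟫ = 0 → ⟪w, Y⟫ = ⟪w, Z⟫) →
      H a (ofLp Y) = H a (ofLp Z)) :
    ∫ y, H (∑ i, p i * y i) y ∂(gaussPi n) = ∫ y, H (∑ i, q i * y i) y ∂(gaussPi n) := by
  set P : EuclideanSpace ℝ (Fin n) := toLp 2 p
  set Q : EuclideanSpace ℝ (Fin n) := toLp 2 q
  have hPQ : ‖P‖ = ‖Q‖ := by
    simp only [EuclideanSpace.norm_eq, P, Q, Real.norm_eq_abs, sq_abs, hn]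
  set σ := (ℝ ∙ (P - Q))ᗮ.reflection
  refine gaussPi_isometry σ (hH p) (hH q) fun Y => ?_
  have hl : ∀ (v : Fin n → ℝ) (Z : EuclideanSpace ℝ (Fin n)),
      ∑ i, v i * ofLp Z i = ⟪toLp 2 v, Z⟫ := fun v Z => by
    simp [PiLp.inner_apply, mul_comm]
  have hfix : ∀ w : EuclideanSpace ℝ (Fin n), ⟪P - Q, w⟫ = 0 → ⟪w, σ Y⟫ = ⟪w, Y⟫ := fun w hw => by
    have hσw : σ w = w := Submodule.reflection_mem_subspace_eq_self
      (Submodule.mem_orthogonal_singleton_iff_inner_right.2 hw)
    conv_lhs => rw [← hσw, σ.inner_map_map]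
  rw [hl, hl, show ⟪toLp 2 p, σ Y⟫ = ⟪Q, Y⟫ by
    rw [← σ.inner_map_map Q Y, show σ Q = P by
      rw [← Submodule.reflection_sub hPQ]; exact Submodule.reflection_reflection _ _]]
  refine hinv _ _ _ (σ.norm_map Y) (fun i hi => ?_) hfix
  have := hfix (EuclideanSpace.single i 1)
    (by simp [EuclideanSpace.inner_single_right, P, Q, hi])
  simpa [EuclideanSpace.inner_single_left] using this

/-- `E (r Y₁ + w U - c |Y|)^+` in dimension `m + 1`. -/
noncomputable def PsiG (m : ℕ) (c r w : ℝ) : ℝ :=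
  ∫ y, hh w (r * y 0 - c * rad y) ∂(gaussPi (m + 1))

theorem abs_lin_le {n : ℕ} (p : Fin n → ℝ) (y : Fin n → ℝ) :
    |∑ i, p i * y i| ≤ (∑ i, |p i|) * rad y := by
  rw [Finset.sum_mul]
  refine (Finset.abs_sum_le_sum_abs _ _).trans (Finset.sum_le_sum fun i _ => ?_)
  rw [abs_mul]
  exact mul_le_mul_of_nonneg_left (abs_le_rad y i) (abs_nonneg _)

/-- More weight off the plane gives a larger value. -/
theorem PsiG_mono (m : ℕ) {c r s r' s' : ℝ} (hc : 0 ≤ c) (hr' : 0 ≤ r') (hrr : r' ≤ r) (hs : 0 ≤ s)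
    (hs' : 0 ≤ s') (hn : r ^ 2 + s ^ 2 = r' ^ 2 + s' ^ 2) : PsiG m c r s ≤ PsiG m c r' s' := by
  have key : ∀ a b : ℝ, PsiG m c a b = ∫ Y, hh 0 (a * ⟪EuclideanSpace.single 0 (1 : ℝ), Y⟫
      + b * ⟪EuclideanSpace.single (Fin.last (m + 1)) (1 : ℝ), Y⟫
      - c * rad (fun i : Fin (m + 1) => (ofLp Y) i.castSucc))
        ∂(stdGaussian (EuclideanSpace ℝ (Fin (m + 2)))) := by
    intro a b
    have hm : Measurable fun y : Fin (m + 1) → ℝ => a * y 0 - c * rad y :=
      ((measurable_pi_apply 0).const_mul a).sub (measurable_rad.const_mul c)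
    rw [PsiG, ← integral_snoc b (integrable_gaussPi hm (A := |a| + c) (B := 0) fun y => ?_)]
    · rw [gaussPi_eq]
      · refine integral_congr_ae (ae_of_all _ fun Y => ?_)
        simp only [hh_zero, EuclideanSpace.inner_single_left, map_one, one_mul, Fin.castSucc_zero]
        congr 1
        ring
      · have h1 : Measurable fun y : Fin (m + 2) → ℝ => fun i : Fin (m + 1) => y i.castSucc :=
          measurable_pi_lambda _ fun i => measurable_pi_apply _
        exact ((hm.comp h1).add ((measurable_pi_apply (Fin.last (m + 1))).const_mul b)).max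
          measurable_const
    · refine (abs_sub _ _).trans ?_
      rw [abs_mul, abs_mul, abs_of_nonneg hc, abs_of_nonneg (rad_nonneg y), add_zero, add_mul]
      exact add_le_add (mul_le_mul_of_nonneg_left (abs_le_rad y 0) (abs_nonneg _)) le_rfl
  rw [key, key]
  refine circle (by simp) (by simp) ?_ hr' hrr hs hs' hn 0 ?_ (fun Y => mul_nonneg hc (rad_nonneg _))
    (fun Y => ?_) (C := c) (fun Y => ?_) ?_
  · simp [EuclideanSpace.inner_single_left, Fin.ext_iff]
  · exact ((measurable_rad.comp (measurable_pi_lambda _ fun i =>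
      (measurable_pi_apply _).comp (WithLp.measurable_ofLp 2 _)))).const_mul c
  · simp [rad]
  · refine mul_le_mul_of_nonneg_left ?_ hc
    rw [← rad_eq_norm]
    exact rad_init_le _
  · intro x y _ ho he
    refine mul_le_mul_of_nonneg_left (Real.sqrt_le_sqrt (Finset.sum_le_sum fun i _ => ?_)) hc
    by_cases hi : i = 0
    · subst hi
      simpa [EuclideanSpace.inner_single_left] using he
    · have := ho (EuclideanSpace.single i.castSucc (1 : ℝ))
        (by simp [EuclideanSpace.inner_single_left, hi])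
        (by simp [EuclideanSpace.inner_single_left, (Fin.castSucc_lt_last i).ne])
      simp only [EuclideanSpace.inner_single_left, map_one, one_mul] at this
      simp only [this, le_refl]

/-- Only the length of the in-plane part matters. -/
theorem PsiG_rotate (m : ℕ) (c w : ℝ) (p : Fin (m + 1) → ℝ) :
    ∫ y, hh w (∑ i, p i * y i - c * rad y) ∂(gaussPi (m + 1)) = PsiG m c (rad p) w := by
  have h := gaussPi_rotate (p := p) (q := fun i => if i = 0 then rad p else 0)
    (H := fun a y => hh w (a - c * rad y)) ?_ ?_ ?_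
  · rw [h, PsiG]
    refine integral_congr_ae (ae_of_all _ fun y => ?_)
    simp [ite_mul]
  · simp [rad, Real.sq_sqrt (Finset.sum_nonneg fun i _ => sq_nonneg (p i)), ite_pow]
  · exact fun q => (continuous_hh w).measurable.comp
      ((Finset.measurable_sum _ fun i _ => (measurable_pi_apply i).const_mul _).sub
        (measurable_rad.const_mul c))
  · intro a Y Z h _ _
    rw [rad_eq_norm, rad_eq_norm, h]

end Vale.Agent.P226.Core
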