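import Vale.Agent.P226.Interface
import Vale.Agent.P226.Core.Cells

/-! # P226 core: adapted frames and the law of one cell -/

namespace Vale.Agent.P226.Core

open MeasureTheory ProbabilityTheory Real WithLp
open scoped RealInnerProductSpace

variable {E : Type*} [NormedAddCommGroup E] [InnerProductSpace ℝ E] {m : ℕ}

/-- The part of `z` orthogonal to an orthonormal family. -/
noncomputable def res (e : Fin m → E) (z : E) : E := z - ∑ j, ⟪e j, z⟫ • e j

theorem res_sub (e : Fin m → E) (y z : E) : res e (y - z) = res e y - res e z := by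
  simp only [res, inner_sub_right, sub_smul, Finset.sum_sub_distrib]
  abel

theorem res_sum {ι : Type*} (e : Fin m → E) (s : Finset ι) (z : ι → E) :
    res e (∑ i ∈ s, z i) = ∑ i ∈ s, res e (z i) := by
  simp only [res, inner_sum, Finset.sum_smul, Finset.sum_sub_distrib]
  rw [Finset.sum_comm]

theorem inner_res (e : Fin m → E) (he : Orthonormal ℝ e) (z : E) (j : Fin m) :
    ⟪e j, res e z⟫ = 0 := by
  rw [res, inner_sub_right, inner_sum]
  simp [inner_smul_right, orthonormal_iff_ite.1 he]

theorem norm_res_sq (e : Fin m → E) (he : Orthonormal ℝ e) (z : E) :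
    ‖res e z‖ ^ 2 = ‖z‖ ^ 2 - ∑ j, ⟪e j, z⟫ ^ 2 := by
  have h0 : ⟪∑ j, ⟪e j, z⟫ • e j, res e z⟫ = 0 := by
    simp [sum_inner, real_inner_smul_left, inner_res e he z]
  have h1 : ⟪z, res e z⟫ = ‖res e z‖ ^ 2 := by
    calc ⟪z, res e z⟫ = ⟪res e z + ∑ j, ⟪e j, z⟫ • e j, res e z⟫ := by rw [res, sub_add_cancel]
      _ = _ := by rw [inner_add_left, h0, add_zero, real_inner_self_eq_norm_sq]
  rw [← h1, res, inner_sub_right, inner_sum, real_inner_self_eq_norm_sq]
  simp [inner_smul_right, real_inner_comm z, sq]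

theorem norm_res_le (e : Fin m → E) (he : Orthonormal ℝ e) (z : E) : ‖res e z‖ ≤ ‖z‖ := by
  refine (sq_le_sq₀ (norm_nonneg _) (norm_nonneg _)).1 ?_
  rw [norm_res_sq e he]
  have : 0 ≤ ∑ j, ⟪e j, z⟫ ^ 2 := Finset.sum_nonneg fun j _ => sq_nonneg _
  linarith

theorem res_castSucc (e : Fin (m + 1) → E) (z : E) :
    res (fun i : Fin m => e i.castSucc) z = res e z + ⟪e (Fin.last m), z⟫ • e (Fin.last m) := by
  rw [res, res, Fin.sum_univ_castSucc]
  abel

/-- An orthonormal frame adapted to a finite family. -/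
theorem exists_frame {n : ℕ} (hn : m + 1 ≤ n) (d : Fin (m + 1) → EuclideanSpace ℝ (Fin n)) :
    ∃ e : Fin (m + 1) → EuclideanSpace ℝ (Fin n), Orthonormal ℝ e ∧
      (∀ i j, i < j → ⟪e j, d i⟫ = 0) ∧ ∀ i, res e (d i) = 0 := by
  set f : Fin n → EuclideanSpace ℝ (Fin n) :=
    fun j => if h : (j : ℕ) < m + 1 then d ⟨j, h⟩ else 0 with hf
  set b := InnerProductSpace.gramSchmidtOrthonormalBasis
    (𝕜 := ℝ) (h := (by simp : Module.finrank ℝ (EuclideanSpace ℝ (Fin n)) = Fintype.card (Fin n)))
    f with hb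
  have hd : ∀ (i : Fin (m + 1)) (j : Fin n), (i : ℕ) < j → ⟪b j, d i⟫ = 0 := fun i j hij => by
    have := InnerProductSpace.gramSchmidtOrthonormalBasis_inv_triangular
      (𝕜 := ℝ) (h := (by simp : Module.finrank ℝ (EuclideanSpace ℝ (Fin n)) = Fintype.card (Fin n)))
      f (i := Fin.castLE hn i) (j := j) (by simpa [Fin.lt_def] using hij)
    simpa [hf, hb, Nat.le_of_lt_succ i.2] using this
  refine ⟨fun i => b (Fin.castLE hn i), b.orthonormal.comp _ (Fin.castLE_injective hn),
    fun i j hij => hd i _ (by simpa using hij), fun i => sub_eq_zero.2 ?_⟩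
  conv_lhs => rw [← b.sum_repr' (d i)]
  refine Eq.trans ?_ (Finset.sum_image (g := fun i => Fin.castLE hn i)
    (f := fun j => ⟪b j, d i⟫ • b j) (s := Finset.univ) fun a _ c _ h => Fin.castLE_injective hn h)
  refine (Finset.sum_subset (Finset.subset_univ _) fun j _ hj => ?_).symm
  rw [hd i j, zero_smul]
  refine lt_of_lt_of_le i.2 (not_lt.1 fun hlt => hj ?_)
  exact Finset.mem_image.2 ⟨⟨j, hlt⟩, Finset.mem_univ _, Fin.ext rfl⟩

variable [FiniteDimensional ℝ E] [MeasurableSpace E] [BorelSpace E]

/-- The law of one cell against a witness which depends on the frame coordinates only. -/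
theorem cell_law {e : Fin (m + 1) → E} (he : Orthonormal ℝ e) (z : E)
    {W : (Fin (m + 1) → ℝ) → ℝ} (hW : Measurable W) {C : ℝ} (hWb : ∀ y, |W y| ≤ C * rad y) :
    ∫ x, max (⟪z, x⟫ - W (coords e x)) 0 ∂(stdGaussian E) =
      ∫ y, hh ‖res e z‖ (∑ j, ⟪e j, z⟫ * y j - W y) ∂(gaussPi (m + 1)) := by
  set G : (Fin (m + 1) → ℝ) → ℝ := fun y => ∑ j, ⟪e j, z⟫ * y j - W y with hG
  have hGm : Measurable G :=
    (Finset.measurable_sum _ fun i _ => (measurable_pi_apply i).const_mul _).sub hW
  have hz : ∀ x, ⟪z, x⟫ - W (coords e x) = G (coords e x) + ⟪res e z, x⟫ := fun x => by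
    simp only [hG, res, coords, inner_sub_left, sum_inner, real_inner_smul_left]
    ring
  rcases eq_or_ne (res e z) 0 with h0 | h0
  · simp only [hz, h0, inner_zero_left, add_zero, norm_zero, hh_zero]
    exact integral_coords_orthonormal he (hGm.max measurable_const)
  have hnz : ‖res e z‖ ≠ 0 := norm_ne_zero_iff.2 h0
  have he' : Orthonormal ℝ (Fin.snoc e (‖res e z‖⁻¹ • res e z) : Fin (m + 2) → E) := by
    rw [orthonormal_iff_ite]
    intro i j
    induction i using Fin.lastCases with
    | last =>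
      induction j using Fin.lastCases with
      | last => simp [norm_smul, hnz]
      | cast j =>
        simp [real_inner_comm (e j), inner_smul_right, inner_res e he z j,
          (Fin.castSucc_lt_last j).ne']
    | cast i =>
      induction j using Fin.lastCases with
      | last => simp [inner_smul_right, inner_res e he z i, (Fin.castSucc_lt_last i).ne]
      | cast j => simp [orthonormal_iff_ite.1 he]
  have hi : Integrable G (gaussPi (m + 1)) := by
    refine integrable_gaussPi hGm (A := (∑ j, |⟪e j, z⟫|) + C) (B := 0) fun y => ?_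
    refine (abs_sub _ _).trans ?_
    rw [add_zero, add_mul]
    exact add_le_add (abs_lin_le _ y) (hWb y)
  rw [← integral_snoc ‖res e z‖ hi, ← integral_coords_orthonormal he']
  · refine integral_congr_ae (ae_of_all _ fun x => ?_)
    simp only [hz, coords, Fin.snoc_castSucc, Fin.snoc_last, real_inner_smul_left]
    rw [← mul_assoc, mul_inv_cancel₀ hnz, one_mul]
    rfl
  · exact ((hGm.comp (measurable_pi_lambda _ fun i => measurable_pi_apply _)).add
      ((measurable_pi_apply _).const_mul _)).max measurable_const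

/-- A dual witness bounds the expected maximum. -/
theorem emax_le {k n : ℕ} [NeZero k] (z : Fin k → EuclideanSpace ℝ (Fin n))
    {e : Fin (m + 1) → EuclideanSpace ℝ (Fin n)} (he : Orthonormal ℝ e)
    {W : (Fin (m + 1) → ℝ) → ℝ} (hW : Measurable W) {C : ℝ} (hC : 0 ≤ C)
    (hWb : ∀ y, |W y| ≤ C * rad y) :
    emax z ≤ (∫ y, W y ∂(gaussPi (m + 1))) +
      ∑ i, ∫ y, hh ‖res e (z i)‖ (∑ j, ⟪e j, z i⟫ * y j - W y) ∂(gaussPi (m + 1)) := by
  have hrad : ∀ x, rad (coords e x) ≤ ‖x‖ := fun x => by
    rw [rad, Real.sqrt_le_left (norm_nonneg _)]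
    have h1 := norm_res_sq e he x
    have h2 := sq_nonneg ‖res e x‖
    simp only [coords]
    linarith
  have hWi : Integrable (fun x => W (coords e x)) (stdGaussian (EuclideanSpace ℝ (Fin n))) :=
    integrable_linear_bound (hW.comp (measurable_coords e)) (A := C) (B := 0) fun x => by
      rw [add_zero]
      exact (hWb _).trans (mul_le_mul_of_nonneg_left (hrad x) hC)
  have hzi : ∀ i, Integrable (fun x => max (⟪z i, x⟫ - W (coords e x)) 0)
      (stdGaussian (EuclideanSpace ℝ (Fin n))) := fun i =>
    (((IsGaussian.integrable_id).norm.const_mul ‖z i‖).mono'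
      (continuous_const.inner continuous_id).aestronglyMeasurable
      (ae_of_all _ fun x => by simpa using abs_real_inner_le_norm (z i) x)).sub hWi |>.pos_part
  have hrhs : Integrable (fun x => W (coords e x) + ∑ i, max (⟪z i, x⟫ - W (coords e x)) 0)
      (stdGaussian (EuclideanSpace ℝ (Fin n))) :=
    hWi.add (integrable_finsetSum _ fun i _ => hzi i)
  calc emax z ≤ ∫ x, (W (coords e x) + ∑ i, max (⟪z i, x⟫ - W (coords e x)) 0)
        ∂(stdGaussian (EuclideanSpace ℝ (Fin n))) := by
        refine integral_mono_of_le ?_ hrhs fun x => Finset.sup'_le _ _ fun i _ => ?_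
        · exact integrable_sup_inner z
        · have : max (⟪z i, x⟫ - W (coords e x)) 0 ≤
              ∑ j, max (⟪z j, x⟫ - W (coords e x)) 0 :=
            Finset.single_le_sum (f := fun j => max (⟪z j, x⟫ - W (coords e x)) 0)
              (fun j _ => le_max_right _ _) (Finset.mem_univ i)
          have h2 : ⟪z i, x⟫ - W (coords e x) ≤ max (⟪z i, x⟫ - W (coords e x)) 0 := le_max_left _ _
          linarith
    _ = _ := by
        rw [integral_add hWi (integrable_finsetSum _ fun i _ => hzi i),
          integral_finsetSum _ fun i _ => hzi i, integral_coords_orthonormal he hW]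
        simp only [cell_law he _ hW hWb]
where
  integrable_sup_inner (z : Fin k → EuclideanSpace ℝ (Fin n)) :
      Integrable (fun x => Finset.univ.sup' Finset.univ_nonempty fun i => ⟪z i, x⟫)
        (stdGaussian (EuclideanSpace ℝ (Fin n))) := by
    refine integrable_linear_bound ?_ (A := ∑ i, ‖z i‖) (B := 0) fun x => ?_
    · exact (Continuous.finset_sup'_apply Finset.univ_nonempty fun i _ =>
        continuous_const.inner continuous_id).measurable
    · rw [add_zero, Finset.sum_mul]
      obtain ⟨i, -, hi⟩ := Finset.exists_mem_eq_sup' Finset.univ_nonempty fun i => ⟪z i, x⟫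
      rw [hi]
      exact (abs_real_inner_le_norm _ _).trans
        (Finset.single_le_sum (f := fun i => ‖z i‖ * ‖x‖) (fun j _ => by positivity)
          (Finset.mem_univ i))
  integral_mono_of_le {f g : EuclideanSpace ℝ (Fin n) → ℝ}
      (hf : Integrable f (stdGaussian (EuclideanSpace ℝ (Fin n))))
      (hg : Integrable g (stdGaussian (EuclideanSpace ℝ (Fin n)))) (h : ∀ x, f x ≤ g x) :
      ∫ x, f x ∂(stdGaussian (EuclideanSpace ℝ (Fin n))) ≤
        ∫ x, g x ∂(stdGaussian (EuclideanSpace ℝ (Fin n))) := integral_mono hf hg h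

end Vale.Agent.P226.Core
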