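import Vale.Agent.P226.Defs

/-! # P226 core: elementary properties of `hh`, submodularity -/

namespace Vale.Agent.P226.Core

open MeasureTheory ProbabilityTheory Real

theorem integrable_gauss_id : Integrable (fun u : ℝ => u) (gaussianReal 0 1) :=
  IsGaussian.integrable_id

theorem integrable_relu (w t : ℝ) :
    Integrable (fun u : ℝ => max (t + w * u) 0) (gaussianReal 0 1) :=
  ((integrable_const t).add (integrable_gauss_id.const_mul w)).pos_part

theorem abs_hh_sub_le (w s t : ℝ) : |hh w s - hh w t| ≤ |s - t| := by
  have h : ∀ u : ℝ, |max (s + w * u) 0 - max (t + w * u) 0| ≤ |s - t| := fun u => by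
    simpa using abs_max_sub_max_le_abs (s + w * u) (t + w * u) 0
  rw [hh, hh, ← integral_sub (integrable_relu w s) (integrable_relu w t)]
  exact abs_integral_le_integral_abs.trans
    ((integral_mono (((integrable_relu w s).sub (integrable_relu w t)).abs) (integrable_const _)
      h).trans (by simp))

theorem continuous_hh (w : ℝ) : Continuous (hh w) :=
  (LipschitzWith.of_dist_le_mul (K := 1) fun s t => by
    simpa [Real.dist_eq] using abs_hh_sub_le w s t).continuous

theorem hh_nonneg (w t : ℝ) : 0 ≤ hh w t :=
  integral_nonneg fun _ => le_max_right _ _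

theorem abs_hh_le (w t : ℝ) : |hh w t| ≤ |t| + |hh w 0| := by
  have h := abs_hh_sub_le w t 0
  rw [sub_zero] at h
  linarith [abs_sub_abs_le_abs_sub (hh w t) (hh w 0)]

theorem hh_mono {w s t : ℝ} (h : s ≤ t) : hh w s ≤ hh w t :=
  integral_mono (integrable_relu w s) (integrable_relu w t) fun u =>
    max_le_max (by linarith) le_rfl

theorem hh_zero (t : ℝ) : hh 0 t = max t 0 := by simp [hh]

theorem relu_four (a z : ℝ) (ha : 0 ≤ a) :
    max (a + z) 0 + max (-a + z) 0 = max |z| a + z := by
  rcases le_total 0 z with hz | hz
  · rw [abs_of_nonneg hz]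
    rcases le_total z a with h | h
    · rw [max_eq_left (by linarith : 0 ≤ a + z), max_eq_right (by linarith : -a + z ≤ 0),
        max_eq_right h]; ring
    · rw [max_eq_left (by linarith : 0 ≤ a + z), max_eq_left (by linarith : 0 ≤ -a + z),
        max_eq_left h]; ring
  · rw [abs_of_nonpos hz, max_eq_right (by linarith : -a + z ≤ 0)]
    rcases le_total (-z) a with h | h
    · rw [max_eq_left (by linarith : 0 ≤ a + z), max_eq_right h]; ring
    · rw [max_eq_right (by linarith : a + z ≤ 0), max_eq_left h]; ring

/-- `max |z| q - max |z| p`, an even unimodal function. -/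
noncomputable def bump (p q z : ℝ) : ℝ := max |z| q - max |z| p

theorem bump_anti {p q z z' : ℝ} (hpq : p ≤ q) (h : |z| ≤ |z'|) : bump p q z' ≤ bump p q z := by
  unfold bump
  rcases le_total |z'| p with a | a
  · rw [max_eq_right a, max_eq_right (a.trans hpq), max_eq_right (h.trans a),
      max_eq_right ((h.trans a).trans hpq)]
  · rw [max_eq_left a]
    rcases le_total |z'| q with b | b
    · rw [max_eq_right b, max_eq_right (h.trans b)]
      linarith [max_le h a]
    · rw [max_eq_left b, sub_self]
      exact sub_nonneg.2 (max_le_max le_rfl hpq)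

theorem abs_bump_le {p q z : ℝ} : |bump p q z| ≤ |q - p| := by
  have := abs_max_sub_max_le_abs q p |z|
  unfold bump
  rwa [max_comm |z| q, max_comm |z| p]

theorem measurable_bump (p q : ℝ) : Measurable (bump p q) := by
  unfold bump; fun_prop

theorem integrable_bump (b L p q : ℝ) :
    Integrable (fun u : ℝ => bump p q (b * u - L)) (gaussianReal 0 1) :=
  Integrable.of_bound ((measurable_bump p q).comp (by fun_prop)).aestronglyMeasurable |q - p|
    (ae_of_all _ fun _ => abs_bump_le)

theorem bump_gauss_anti {p q : ℝ} (hpq : p ≤ q) (b : ℝ) {L L' : ℝ} (hL : 0 ≤ L) (hLL : L ≤ L') :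
    ∫ u, bump p q (b * u - L') ∂(gaussianReal 0 1) ≤
      ∫ u, bump p q (b * u - L) ∂(gaussianReal 0 1) := by
  rcases eq_or_ne b 0 with rfl | hb
  · simp only [zero_mul, zero_sub, integral_const, probReal_univ, smul_eq_mul, one_mul]
    exact bump_anti hpq (by rw [abs_neg, abs_neg, abs_of_nonneg hL, abs_of_nonneg (hL.trans hLL)]
                            exact hLL)
  rw [← sub_nonneg, ← integral_sub (integrable_bump b L p q) (integrable_bump b L' p q)]
  set d : ℝ → ℝ := fun u => bump p q (b * u - L) - bump p q (b * u - L') with hd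
  set c := (L + L') / b with hc
  have hbc : b * c = L + L' := by rw [hc]; field_simp
  change 0 ≤ ∫ u, d u ∂(gaussianReal 0 1)
  rw [integral_gaussianReal_eq_integral_smul (by simp)]
  simp only [smul_eq_mul]
  set f : ℝ → ℝ := gaussianPDFReal 0 1 with hf
  have hdc : ∀ u, d (c - u) = - d u := fun u => by
    have e1 : b * (c - u) - L = -(b * u - L') := by rw [mul_sub, hbc]; ring
    have e2 : b * (c - u) - L' = -(b * u - L) := by rw [mul_sub, hbc]; ring
    simp only [hd, e1, e2, bump, abs_neg]; ring
  have hswap : ∫ u, f u * d u = ∫ u, -(f (c - u) * d u) := by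
    rw [← integral_sub_left_eq_self (fun u => f u * d u) volume c]
    simp [hdc]
  have hint : Integrable (fun u => f u * d u) := by
    refine ((integrable_gaussianPDFReal 0 1).mul_bdd (c := |q - p| + |q - p|) ?_ ?_)
    · exact (((measurable_bump p q).comp (by fun_prop)).sub
        ((measurable_bump p q).comp (by fun_prop))).aestronglyMeasurable
    · exact ae_of_all _ fun u => (abs_sub _ _).trans (add_le_add abs_bump_le abs_bump_le)
  have hint2 : Integrable (fun u => -(f (c - u) * d u)) := by
    refine ((((integrable_gaussianPDFReal 0 1).comp_sub_left c).mul_bdd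
      (c := |q - p| + |q - p|) ?_ ?_)).neg
    · exact (((measurable_bump p q).comp (by fun_prop)).sub
        ((measurable_bump p q).comp (by fun_prop))).aestronglyMeasurable
    · exact ae_of_all _ fun u => (abs_sub _ _).trans (add_le_add abs_bump_le abs_bump_le)
  have hkey : ∀ u, 0 ≤ f u * d u + -(f (c - u) * d u) := by
    intro u
    rw [show f u * d u + -(f (c - u) * d u) = (f u - f (c - u)) * d u by ring]
    have hfle : ∀ x y : ℝ, x ^ 2 ≤ y ^ 2 → f y ≤ f x := fun x y h => by
      simp only [hf, gaussianPDFReal, sub_zero, NNReal.coe_one, mul_one]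
      exact mul_le_mul_of_nonneg_left (Real.exp_le_exp.2 (by linarith)) (by positivity)
    rcases eq_or_lt_of_le hLL with rfl | hlt
    · simp [hd]
    have key : ∀ s, 0 ≤ (L + L' - 2 * (b * u)) * s → 0 ≤ c * (c - 2 * u) * s := by
      intro s hs
      have : c * (c - 2 * u) * s * (b * b) = (b * c) * ((b * c - 2 * (b * u)) * s) := by ring
      rw [hbc] at this
      have h0 : 0 ≤ c * (c - 2 * u) * s * (b * b) := this ▸ mul_nonneg (by linarith) hs
      exact nonneg_of_mul_nonneg_left h0 (mul_self_pos.2 hb)
    rcases le_total (2 * (b * u)) (L + L') with h | h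
    · have := key 1 (by linarith)
      refine mul_nonneg (sub_nonneg.2 (hfle _ _ (by nlinarith)))
        (sub_nonneg.2 (bump_anti hpq (sq_le_sq.1 (by nlinarith))))
    · have := key (-1) (by linarith)
      refine mul_nonneg_of_nonpos_of_nonpos (sub_nonpos.2 (hfle _ _ (by nlinarith)))
        (sub_nonpos.2 (bump_anti hpq (sq_le_sq.1 (by nlinarith))))
  have h2 := integral_add hint hint2
  rw [← hswap] at h2
  have h3 : 0 ≤ ∫ u, (f u * d u + -(f (c - u) * d u)) := integral_nonneg hkey
  linarith

/-- `hh` of `± q - L` gains less from a larger `q` when `L` is larger. -/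
theorem hh_submod (b : ℝ) {p q L L' : ℝ} (hp : 0 ≤ p) (hpq : p ≤ q) (hL : 0 ≤ L) (hLL : L ≤ L') :
    hh b (q - L') + hh b (-q - L') - (hh b (p - L') + hh b (-p - L')) ≤
      hh b (q - L) + hh b (-q - L) - (hh b (p - L) + hh b (-p - L)) := by
  have e : ∀ M, hh b (q - M) + hh b (-q - M) - (hh b (p - M) + hh b (-p - M)) =
      ∫ u, bump p q (b * u - M) ∂(gaussianReal 0 1) := fun M => by
    unfold hh
    rw [← integral_add (integrable_relu _ _) (integrable_relu _ _),
      ← integral_add (integrable_relu _ _) (integrable_relu _ _)]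
    rw [← integral_sub]
    · refine integral_congr_ae (ae_of_all _ fun u => ?_)
      have h1 := relu_four q (b * u - M) (hp.trans hpq)
      have h2 := relu_four p (b * u - M) hp
      simp only
      rw [show q - M + b * u = q + (b * u - M) by ring,
        show -q - M + b * u = -q + (b * u - M) by ring,
        show p - M + b * u = p + (b * u - M) by ring,
        show -p - M + b * u = -p + (b * u - M) by ring, h1, h2]
      unfold bump; ring
    · exact (integrable_relu _ _).add (integrable_relu _ _)
    · exact (integrable_relu _ _).add (integrable_relu _ _)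
  rw [e, e]
  exact bump_gauss_anti hpq b hL hLL

end Vale.Agent.P226.Core
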